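import Mathlib

/-! P087: definitions for the two free entropies of Voiculescu. -/

open scoped ENNReal
open MeasureTheory Filter

namespace P087

/-- A von Neumann algebra `M` on a Hilbert space `H` with a faithful normal tracial state, given as the
vector state `τ(a) = ⟪Ω, a Ω⟫` of a unit vector `Ω` (a vector state is automatically normal). -/
structure TracialVN (H : Type) [NormedAddCommGroup H] [InnerProductSpace ℂ H] [CompleteSpace H] where
  /-- the von Neumann algebra -/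
  M : VonNeumannAlgebra H
  /-- the trace vector -/
  Ω : H
  norm_Ω : ‖Ω‖ = 1
  trace_comm : ∀ a ∈ M, ∀ b ∈ M, inner ℂ Ω ((a * b) Ω) = inner ℂ Ω ((b * a) Ω)
  faithful : ∀ a ∈ M, a Ω = 0 → a = 0

section

variable {H : Type} [NormedAddCommGroup H] [InnerProductSpace ℂ H] [CompleteSpace H]

/-- the trace `τ(a) = ⟪Ω, a Ω⟫` -/
noncomputable def TracialVN.tr (T : TracialVN H) (a : H →L[ℂ] H) : ℂ := inner ℂ T.Ω (a T.Ω)

variable {κ : Type}

/-- the monomial `X_{w_1} X_{w_2} ⋯` -/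
noncomputable def wordOp (X : κ → H →L[ℂ] H) (w : List κ) : H →L[ℂ] H := (w.map X).prod

/-- `(τ ⊗ τ)(∂_j P)(X)` for the monomial `P = x_w`: sum over the positions of the letter `j` in `w` -/
noncomputable def dq [DecidableEq κ] (T : TracialVN H) (X : κ → H →L[ℂ] H) (j : κ) (w : List κ) : ℂ :=
  ∑ l ∈ Finset.range w.length,
    if w[l]? = some j then T.tr (wordOp X (w.take l)) * T.tr (wordOp X (w.drop (l + 1))) else 0

/-- `L²(W*(X), τ)`: closure of the polynomials in `X` applied to the trace vector -/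
noncomputable def L2 (T : TracialVN H) (X : κ → H →L[ℂ] H) : Submodule ℂ H :=
  (Submodule.span ℂ (Set.range fun w : List κ => wordOp X w T.Ω)).topologicalClosure

/-- `η = ξ* Ω` for the conjugate variable `ξ = ξ_j`: `η ∈ L²(W*(X))` and
`⟪η, P(X) Ω⟫ = τ(ξ P(X)) = (τ ⊗ τ)(∂_j P)(X)` for all monomials `P`; `‖η‖ = ‖ξ‖₂`. -/
def IsConj [DecidableEq κ] (T : TracialVN H) (X : κ → H →L[ℂ] H) (j : κ) (η : H) : Prop :=
  η ∈ L2 T X ∧ ∀ w : List κ, inner ℂ η (wordOp X w T.Ω) = dq T X j w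

/-- the free Fisher information `Φ*(X) = Σ_j ‖ξ_j‖₂²` if conjugate variables exist (they are unique), `+∞` otherwise
(the infimum over the empty set is `⊤`). -/
noncomputable def PhiStar [DecidableEq κ] [Fintype κ] (T : TracialVN H) (X : κ → H →L[ℂ] H) : ℝ≥0∞ :=
  ⨅ (η : κ → H) (_ : ∀ j, IsConj T X j (η j)), ∑ j, ENNReal.ofReal (‖η j‖ ^ 2)

/-- `X + √t S` -/
noncomputable def pert (X S : κ → H →L[ℂ] H) (t : ℝ) : κ → H →L[ℂ] H := fun j =>
  X j + ((Real.sqrt t : ℝ) : ℂ) • S j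

/-- `χ*(X) = ½ ∫_0^∞ (n/(1+t) - Φ*(X + √t S)) dt + (n/2) log (2πe)`; the integral is the difference of the
integrals of the positive and the negative part (`-` on `ℝ≥0∞` is truncated). -/
noncomputable def chiStar [DecidableEq κ] [Fintype κ] (T : TracialVN H) (X S : κ → H →L[ℂ] H) : EReal :=
  (((∫⁻ t in Set.Ioi (0 : ℝ),
      (ENNReal.ofReal (Fintype.card κ / (1 + t)) - PhiStar T (pert X S t))) / 2 : ℝ≥0∞) : EReal)
  - (((∫⁻ t in Set.Ioi (0 : ℝ),
      (PhiStar T (pert X S t) - ENNReal.ofReal (Fintype.card κ / (1 + t)))) / 2 : ℝ≥0∞) : EReal)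
  + ((Fintype.card κ / 2 * Real.log (2 * Real.pi * Real.exp 1) : ℝ) : EReal)

/-- Lebesgue coordinates on the self-adjoint `k × k` matrices, orthonormal for `⟨A,B⟩ = Tr(AB)`:
diagonal entries `v i i`, and for `i < j` the `(i,j)` entry is `(v i j + √-1 v j i)/√2`. -/
noncomputable def herm (k : ℕ) (v : Fin k → Fin k → ℝ) : Matrix (Fin k) (Fin k) ℂ := fun i j =>
  if i = j then (v i i : ℂ)
  else if i < j then ((v i j : ℂ) + Complex.I * (v j i : ℂ)) / (Real.sqrt 2 : ℝ)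
  else ((v j i : ℂ) - Complex.I * (v i j : ℂ)) / (Real.sqrt 2 : ℝ)

/-- the set of microstates `Γ_R(X; m, k, ε)`, in coordinates -/
def Gam (T : TracialVN H) (X : κ → H →L[ℂ] H) (R : ℝ) (m k : ℕ) (ε : ℝ) :
    Set (κ → Fin k → Fin k → ℝ) :=
  {v | (∀ j, ‖Matrix.toEuclideanCLM (n := Fin k) (𝕜 := ℂ) (herm k (v j))‖ ≤ R) ∧
    ∀ w : List κ, 1 ≤ w.length → w.length ≤ m →
      ‖(k : ℂ)⁻¹ * Matrix.trace ((w.map fun j => herm k (v j)).prod) - T.tr (wordOp X w)‖ < ε}

/-- `χ_R(X)` -/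
noncomputable def chiR [Fintype κ] (T : TracialVN H) (X : κ → H →L[ℂ] H) (R : ℝ) : EReal :=
  ⨅ (m : ℕ) (ε : ℝ) (_ : 0 < ε),
    limsup (fun k : ℕ => ((((k : ℝ) ^ 2)⁻¹ : ℝ) : EReal) * ENNReal.log (volume (Gam T X R m k ε))
      + ((Fintype.card κ / 2 * Real.log k : ℝ) : EReal)) atTop

/-- the microstates free entropy `χ(X) = sup_R χ_R(X)` -/
noncomputable def chi [Fintype κ] (T : TracialVN H) (X : κ → H →L[ℂ] H) : EReal :=
  ⨆ (R : ℝ) (_ : 0 < R), chiR T X R

/-- freeness of a family of subalgebras: alternating products of centered elements have trace `0` -/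
def IsFree (T : TracialVN H) {ι : Type} (A : ι → Subalgebra ℂ (H →L[ℂ] H)) : Prop :=
  ∀ (m : ℕ) (i : Fin (m + 1) → ι) (a : Fin (m + 1) → H →L[ℂ] H),
    (∀ l : Fin m, i l.castSucc ≠ i l.succ) → (∀ l, a l ∈ A (i l)) → (∀ l, T.tr (a l) = 0) →
    T.tr (List.ofFn a).prod = 0

/-- standard semicircular element (variance `1`): even moments are the Catalan numbers -/
def IsSemicircular (T : TracialVN H) (s : H →L[ℂ] H) : Prop :=
  ∀ k : ℕ, T.tr (s ^ (2 * k)) = (catalan k : ℂ) ∧ T.tr (s ^ (2 * k + 1)) = 0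

/-- `S` is a free family of semicircular elements of variance `1`, free from `X` -/
def FreeSemicircularFrom (T : TracialVN H) (X S : κ → H →L[ℂ] H) : Prop :=
  (∀ j, IsSemicircular T (S j)) ∧
  IsFree T (fun o : Option κ => match o with
    | none => Algebra.adjoin ℂ (Set.range X)
    | some j => Algebra.adjoin ℂ {S j})

end

/-- The statement: a finite self-adjoint tuple in a tracial von Neumann algebra with
`-∞ < χ(X) < χ*(X)`. -/
def Answer : Prop :=
  ∃ (H : Type) (_ : NormedAddCommGroup H) (_ : InnerProductSpace ℂ H) (_ : CompleteSpace H)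
    (T : TracialVN H) (κ : Type) (_ : Fintype κ) (_ : DecidableEq κ) (X S : κ → H →L[ℂ] H),
    (∀ j, X j ∈ T.M ∧ IsSelfAdjoint (X j)) ∧ (∀ j, S j ∈ T.M ∧ IsSelfAdjoint (S j)) ∧
    FreeSemicircularFrom T X S ∧ ⊥ < chi T X ∧ chi T X < chiStar T X S

end P087
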