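import Mathlib

/-!
# P087, section 4: the integral over t

Abstract form: only upper bounds of the free Fisher information are used, no measurability.
-/

open MeasureTheory Set Filter Topology
open scoped ENNReal

namespace P087

/-- Pointwise inequality for truncated subtractions. -/
theorem pt_ineq {Phi f g h : ℝ≥0∞} (hf : f ≠ ⊤) (hh : h ≠ ⊤) (H : Phi + g ≤ f + h) :
    g + (Phi - f) ≤ (f - Phi) + h := by
  have hPhi : Phi ≠ ⊤ := by
    intro h'
    rw [h', top_add, top_le_iff] at H
    exact (ENNReal.add_ne_top.mpr ⟨hf, hh⟩) H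
  rcases le_total Phi f with h1 | h1
  · rw [tsub_eq_zero_of_le h1, add_zero]
    have h2 : Phi + g ≤ Phi + ((f - Phi) + h) := by
      rw [← add_assoc, add_tsub_cancel_of_le h1]
      exact H
    exact (ENNReal.add_le_add_iff_left hPhi).mp h2
  · rw [tsub_eq_zero_of_le h1, zero_add]
    have h2 : f + (g + (Phi - f)) ≤ f + h := by
      rw [add_left_comm, add_tsub_cancel_of_le h1, add_comm g]
      exact H
    exact (ENNReal.add_le_add_iff_left hf).mp h2

theorem lint_g (N T0 : ℝ) (hN : 0 ≤ N) (hT : 0 ≤ T0) :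
    ∫⁻ t in Ioi T0, ENNReal.ofReal (N / (1 + t) ^ 2) = ENNReal.ofReal (N / (1 + T0)) := by
  have hd : ∀ x ∈ Ioi T0, HasDerivAt (fun t : ℝ => -(N / (1 + t))) (N / (1 + x) ^ 2) x := by
    intro x hx
    have hx0 : 1 + x ≠ 0 := by
      have hTx : T0 < x := hx
      linarith
    have h1 : HasDerivAt (fun t : ℝ => 1 + t) 1 x := (hasDerivAt_id x).const_add 1
    have h2 := ((hasDerivAt_const x N).div h1 hx0).neg
    refine h2.congr_deriv ?_
    ring
  have hc : ContinuousWithinAt (fun t : ℝ => -(N / (1 + t))) (Ici T0) T0 := by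
    apply ContinuousAt.continuousWithinAt
    have : 1 + T0 ≠ 0 := by positivity
    fun_prop (disch := assumption)
  have hpos : ∀ x ∈ Ioi T0, 0 ≤ N / (1 + x) ^ 2 := fun x _ => by positivity
  have hlim : Tendsto (fun t : ℝ => -(N / (1 + t))) atTop (𝓝 0) := by
    have h1 : Tendsto (fun t : ℝ => 1 + t) atTop atTop := tendsto_atTop_add_const_left _ _ tendsto_id
    have h2 := (h1.const_div_atTop N).neg
    simpa using h2
  have hint : IntegrableOn (fun t : ℝ => N / (1 + t) ^ 2) (Ioi T0) :=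
    integrableOn_Ioi_deriv_of_nonneg hc hd hpos hlim
  have hval := integral_Ioi_of_hasDerivAt_of_nonneg hc hd hpos hlim
  rw [← ofReal_integral_eq_lintegral_ofReal hint, hval]
  · congr 1
    ring
  · filter_upwards [self_mem_ae_restrict measurableSet_Ioi] with x hx using hpos x hx

theorem lint_h (r d : ℝ) (hr : 0 ≤ r) (hd0 : 0 < d) :
    ∫⁻ t in Ioi d, ENNReal.ofReal (r / t - r / (1 + t)) =
      ENNReal.ofReal (r * Real.log (1 + 1 / d)) := by
  have hd : ∀ x ∈ Ioi d, HasDerivAt (fun t : ℝ => r * (Real.log t - Real.log (1 + t)))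
      (r / x - r / (1 + x)) x := by
    intro x hx
    have hxd : d < x := hx
    have hx0 : x ≠ 0 := by linarith
    have hx1 : 1 + x ≠ 0 := by linarith
    have h1 : HasDerivAt (fun t : ℝ => 1 + t) 1 x := (hasDerivAt_id x).const_add 1
    have h2 := ((Real.hasDerivAt_log hx0).sub (h1.log hx1)).const_mul r
    refine h2.congr_deriv ?_
    field_simp
  have hc : ContinuousWithinAt (fun t : ℝ => r * (Real.log t - Real.log (1 + t))) (Ici d) d := by
    apply ContinuousAt.continuousWithinAt
    have h1 : d ≠ 0 := hd0.ne'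
    have h2 : 1 + d ≠ 0 := by positivity
    fun_prop (disch := assumption)
  have hpos : ∀ x ∈ Ioi d, 0 ≤ r / x - r / (1 + x) := by
    intro x hx
    have hxd : d < x := hx
    have : r / (1 + x) ≤ r / x := div_le_div_of_nonneg_left hr (by linarith) (by linarith)
    linarith
  have hlim : Tendsto (fun t : ℝ => r * (Real.log t - Real.log (1 + t))) atTop (𝓝 0) := by
    have h1 : Tendsto (fun t : ℝ => (1 + t)⁻¹) atTop (𝓝 0) :=
      tendsto_inv_atTop_zero.comp (tendsto_atTop_add_const_left _ _ tendsto_id)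
    have h2 : Tendsto (fun t : ℝ => 1 - (1 + t)⁻¹) atTop (𝓝 (1 - 0)) := h1.const_sub 1
    have h3 : Tendsto (fun t : ℝ => Real.log (1 - (1 + t)⁻¹)) atTop (𝓝 (Real.log (1 - 0))) :=
      (Real.continuousAt_log (by norm_num)).tendsto.comp h2
    have h4 := h3.const_mul r
    rw [sub_zero, Real.log_one, mul_zero] at h4
    refine h4.congr' ?_
    filter_upwards [eventually_gt_atTop (0 : ℝ)] with t ht
    rw [← Real.log_div ht.ne' (by positivity)]
    congr 2
    field_simp
    ring
  have hint : IntegrableOn (fun t : ℝ => r / t - r / (1 + t)) (Ioi d) :=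
    integrableOn_Ioi_deriv_of_nonneg hc hd hpos hlim
  have hval := integral_Ioi_of_hasDerivAt_of_nonneg hc hd hpos hlim
  rw [← ofReal_integral_eq_lintegral_ofReal hint, hval]
  · congr 1
    have h1 : 1 + 1 / d = (1 + d) / d := by field_simp; ring
    rw [h1, Real.log_div (by positivity) hd0.ne']
    ring
  · filter_upwards [self_mem_ae_restrict measurableSet_Ioi] with x hx using hpos x hx

/-- From an ENNReal inequality to the EReal lower bound. -/
theorem ereal_of_le {A B : ℝ≥0∞} {g h : ℝ} (hg : 0 ≤ g) (hh : 0 ≤ h)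
    (hB : B ≤ ENNReal.ofReal h)
    (H : ENNReal.ofReal g + B ≤ A + ENNReal.ofReal h) :
    ((g - h : ℝ) : EReal) ≤ (A : EReal) - (B : EReal) := by
  have hBt : B ≠ ⊤ := ne_top_of_le_ne_top ENNReal.ofReal_ne_top hB
  lift B to NNReal using hBt
  rcases eq_or_ne A ⊤ with hA | hA
  · rw [hA, EReal.coe_ennreal_top, EReal.coe_nnreal_eq_coe_real, EReal.top_sub_coe]
    exact le_top
  · lift A to NNReal using hA
    rw [EReal.coe_nnreal_eq_coe_real, EReal.coe_nnreal_eq_coe_real, ← EReal.coe_sub,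
      EReal.coe_le_coe_iff]
    have H2 : g + (B : ℝ) ≤ A + h := by
      have h1 : ENNReal.ofReal (g + (B : ℝ)) ≤ ENNReal.ofReal ((A : ℝ) + h) := by
        rw [ENNReal.ofReal_add hg (NNReal.coe_nonneg B), ENNReal.ofReal_add (NNReal.coe_nonneg A) hh,
          ENNReal.ofReal_coe_nnreal, ENNReal.ofReal_coe_nnreal]
        exact H
      exact (ENNReal.ofReal_le_ofReal_iff (by positivity)).mp h1
    linarith

/-- Section 4 in abstract form. -/
theorem integral_lower (r N K T0 : ℝ) (hr : 0 ≤ r) (hN : 0 ≤ N) (hK : 0 < K)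
    (hT : 1 ≤ K * T0) (Phi : ℝ → ℝ≥0∞)
    (h1 : ∀ t : ℝ, 0 < t → Phi t ≤ ENNReal.ofReal (r / t + N / (1 + t)))
    (h2 : ∀ t : ℝ, 0 < t → Phi t ≤ ENNReal.ofReal (K + N / (1 + t)))
    (h3 : ∀ t : ℝ, 0 < t → T0 ≤ t →
      Phi t ≤ ENNReal.ofReal (r / t + N / (1 + t) - N / (1 + t) ^ 2)) :
    ((N / (1 + T0) - (r * Real.log (1 + K) + 1) : ℝ) : EReal) ≤
      ((∫⁻ t in Ioi (0 : ℝ), (ENNReal.ofReal ((r + N) / (1 + t)) - Phi t) : ℝ≥0∞) : EReal) -
        ((∫⁻ t in Ioi (0 : ℝ), (Phi t - ENNReal.ofReal ((r + N) / (1 + t))) : ℝ≥0∞) : EReal) := by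
  set d : ℝ := 1 / K with hd
  have hd0 : 0 < d := by positivity
  have hdT : d ≤ T0 := by
    rw [hd, div_le_iff₀ hK]
    linarith
  have hT0 : 0 < T0 := lt_of_lt_of_le hd0 hdT
  set g : ℝ → ℝ≥0∞ := (Ioi T0).indicator (fun t => ENNReal.ofReal (N / (1 + t) ^ 2)) with hgdef
  set ha : ℝ → ℝ≥0∞ := (Ioc 0 d).indicator (fun _ => ENNReal.ofReal K) with hadef
  set hb : ℝ → ℝ≥0∞ := (Ioi d).indicator (fun t => ENNReal.ofReal (r / t - r / (1 + t)))
    with hbdef
  have hgm : Measurable g := by
    apply Measurable.indicator _ measurableSet_Ioi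
    fun_prop
  have ham : Measurable ha := measurable_const.indicator measurableSet_Ioc
  have hbm : Measurable hb := by
    apply Measurable.indicator _ measurableSet_Ioi
    fun_prop
  have key : ∀ t : ℝ, 0 < t → Phi t + g t ≤ ENNReal.ofReal ((r + N) / (1 + t)) + (ha t + hb t) := by
    intro t ht
    have hf0 : 0 ≤ (r + N) / (1 + t) := by positivity
    rcases le_or_gt t d with htd | htd
    · have e1 : g t = 0 := indicator_of_notMem (by simp only [mem_Ioi, not_lt]; linarith) _
      have e2 : ha t = ENNReal.ofReal K := indicator_of_mem (show t ∈ Ioc 0 d from ⟨ht, htd⟩) _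
      have e3 : hb t = 0 := indicator_of_notMem (by simp only [mem_Ioi, not_lt]; exact htd) _
      rw [e1, e2, e3, add_zero, add_zero, ← ENNReal.ofReal_add hf0 hK.le]
      refine (h2 t ht).trans (ENNReal.ofReal_le_ofReal ?_)
      have : 0 ≤ r / (1 + t) := by positivity
      rw [add_div]
      linarith
    · have e2 : ha t = 0 := indicator_of_notMem (fun h => absurd h.2 (not_le.mpr htd)) _
      have e3 : hb t = ENNReal.ofReal (r / t - r / (1 + t)) := indicator_of_mem (show t ∈ Ioi d from htd) _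
      have hnn : 0 ≤ r / t - r / (1 + t) := by
        have : r / (1 + t) ≤ r / t := div_le_div_of_nonneg_left hr ht (by linarith)
        linarith
      rw [e2, e3, zero_add, ← ENNReal.ofReal_add hf0 hnn]
      rcases le_or_gt t T0 with htT | htT
      · have e1 : g t = 0 := indicator_of_notMem (by simp only [mem_Ioi, not_lt]; exact htT) _
        rw [e1, add_zero]
        refine (h1 t ht).trans (ENNReal.ofReal_le_ofReal (le_of_eq ?_))
        rw [add_div]
        ring
      · have e1 : g t = ENNReal.ofReal (N / (1 + t) ^ 2) := indicator_of_mem (show t ∈ Ioi T0 from htT) _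
        rw [e1]
        have hp : 0 ≤ N / (1 + t) ^ 2 := by positivity
        have hq : 0 ≤ r / t + N / (1 + t) - N / (1 + t) ^ 2 := by
          have a1 : 0 ≤ r / t := by positivity
          have a2 : N / (1 + t) ^ 2 ≤ N / (1 + t) := by
            apply div_le_div_of_nonneg_left hN (by positivity)
            nlinarith
          linarith
        refine (add_le_add_left (h3 t ht htT.le) _).trans ?_
        rw [← ENNReal.ofReal_add hq hp]
        apply ENNReal.ofReal_le_ofReal
        rw [add_div]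
        apply le_of_eq
        ring
  have htop : ∀ t : ℝ, ha t + hb t ≠ ⊤ := by
    intro t
    apply ENNReal.add_ne_top.mpr
    constructor
    · rw [hadef]
      by_cases h : t ∈ Ioc 0 d
      · rw [indicator_of_mem h]; exact ENNReal.ofReal_ne_top
      · rw [indicator_of_notMem h]; exact ENNReal.zero_ne_top
    · rw [hbdef]
      by_cases h : t ∈ Ioi d
      · rw [indicator_of_mem h]; exact ENNReal.ofReal_ne_top
      · rw [indicator_of_notMem h]; exact ENNReal.zero_ne_top
  have hG : ∫⁻ t in Ioi (0 : ℝ), g t = ENNReal.ofReal (N / (1 + T0)) := by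
    rw [hgdef, lintegral_indicator measurableSet_Ioi, Measure.restrict_restrict measurableSet_Ioi,
      inter_eq_left.mpr (Ioi_subset_Ioi hT0.le)]
    exact lint_g N T0 hN hT0.le
  have hHa : ∫⁻ t in Ioi (0 : ℝ), ha t = ENNReal.ofReal 1 := by
    rw [hadef, lintegral_indicator measurableSet_Ioc, Measure.restrict_restrict measurableSet_Ioc,
      inter_eq_left.mpr (fun x hx => hx.1), lintegral_const, Measure.restrict_apply_univ,
      Real.volume_Ioc, sub_zero, ← ENNReal.ofReal_mul hK.le]
    congr 1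
    rw [hd]
    field_simp
  have hHb : ∫⁻ t in Ioi (0 : ℝ), hb t = ENNReal.ofReal (r * Real.log (1 + K)) := by
    rw [hbdef, lintegral_indicator measurableSet_Ioi, Measure.restrict_restrict measurableSet_Ioi,
      inter_eq_left.mpr (Ioi_subset_Ioi hd0.le), lint_h r d hr hd0]
    congr 3
    rw [hd]
    field_simp
  have hlog : 0 ≤ r * Real.log (1 + K) := mul_nonneg hr (Real.log_nonneg (by linarith))
  have hH : ∫⁻ t in Ioi (0 : ℝ), (ha t + hb t) = ENNReal.ofReal (r * Real.log (1 + K) + 1) := by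
    rw [lintegral_add_left ham, hHa, hHb, add_comm, ← ENNReal.ofReal_add hlog zero_le_one]
  apply ereal_of_le (by positivity) (by linarith)
  · rw [← hH]
    apply setLIntegral_mono' measurableSet_Ioi
    intro t ht
    rw [tsub_le_iff_left]
    exact le_trans le_self_add (key t ht)
  · rw [← hG, ← hH, ← lintegral_add_left hgm, ← lintegral_add_right _ (show Measurable (fun t => ha t + hb t) from ham.add hbm)]
    apply setLIntegral_mono' measurableSet_Ioi
    intro t ht
    exact pt_ineq ENNReal.ofReal_ne_top (htop t) (key t ht)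

/-- The numerical inequality for r = q ^ 2, q = 10 ^ 6. -/
theorem numeric_pos :
    (0 : ℝ) < ((10 : ℝ) ^ 6) ^ 6 / (1 + 2500 * ((10 : ℝ) ^ 6) ^ 3) -
      (((10 : ℝ) ^ 6) ^ 2 * Real.log (1 + 244 * ((10 : ℝ) ^ 6) ^ 6) + 1) := by
  have h1 : Real.log (1 + 244 * ((10 : ℝ) ^ 6) ^ 6) ≤ 100 := by
    rw [Real.log_le_iff_le_exp (by positivity)]
    have h2 : Real.exp 100 = Real.exp 1 ^ 100 := by
      rw [← Real.exp_nat_mul]
      norm_num
    rw [h2]
    have h3 : (2.7 : ℝ) ≤ Real.exp 1 := by
      have := Real.exp_one_gt_d9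
      linarith
    calc (1 + 244 * ((10 : ℝ) ^ 6) ^ 6) ≤ (2.7 : ℝ) ^ 100 := by norm_num
      _ ≤ Real.exp 1 ^ 100 := pow_le_pow_left₀ (by norm_num) h3 _
  have h4 : ((10 : ℝ) ^ 6) ^ 2 * Real.log (1 + 244 * ((10 : ℝ) ^ 6) ^ 6) ≤ ((10 : ℝ) ^ 6) ^ 2 * 100 :=
    mul_le_mul_of_nonneg_left h1 (by positivity)
  have h5 : ((10 : ℝ) ^ 6) ^ 2 * 100 + 1 < ((10 : ℝ) ^ 6) ^ 6 / (1 + 2500 * ((10 : ℝ) ^ 6) ^ 3) := by
    rw [lt_div_iff₀ (by positivity)]
    norm_num
  exact sub_pos.mpr (lt_of_le_of_lt (add_le_add h4 le_rfl) h5)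

end P087
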