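import Vale.Agent.Lib.P087.Stmt
import Vale.Agent.Lib.P087.Integral

/-! P087: free Cramer-Rao inequality; `χ*(X) < ∞` for every self-adjoint tuple. -/

open MeasureTheory Set Filter
open scoped ENNReal

namespace P087

variable {H : Type} [NormedAddCommGroup H] [InnerProductSpace ℂ H] [CompleteSpace H]
variable {κ : Type} [DecidableEq κ] [Fintype κ]

theorem CR_tr_one (T : TracialVN H) : T.tr 1 = 1 := by
  have h : T.tr 1 = inner ℂ T.Ω T.Ω := rfl
  rw [h, inner_self_eq_norm_sq_to_K, T.norm_Ω]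
  simp

theorem CR_dq (T : TracialVN H) (Y : κ → H →L[ℂ] H) (j : κ) : dq T Y j [j] = 1 := by
  simp [dq, wordOp, CR_tr_one]

/-- free Cramer-Rao -/
theorem CR_PhiStar_ge (T : TracialVN H) (Y : κ → H →L[ℂ] H) (C : ℝ) (hC0 : 0 < C)
    (hC : ∑ j, ‖Y j T.Ω‖ ^ 2 ≤ C) :
    ENNReal.ofReal ((Fintype.card κ : ℝ) ^ 2 / C) ≤ PhiStar T Y := by
  refine le_iInf₂ fun η hη => ?_
  rw [← ENNReal.ofReal_sum_of_nonneg fun i _ => by positivity]
  apply ENNReal.ofReal_le_ofReal
  rw [div_le_iff₀ hC0]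
  have h1 : ∀ j, (1 : ℝ) ≤ ‖η j‖ * ‖Y j T.Ω‖ := by
    intro j
    have h2 := (hη j).2 [j]
    rw [CR_dq] at h2
    have h3 : wordOp Y [j] T.Ω = Y j T.Ω := by simp [wordOp]
    rw [h3] at h2
    have h4 := norm_inner_le_norm (𝕜 := ℂ) (η j) (Y j T.Ω)
    rw [h2, norm_one] at h4
    exact h4
  have h5 : (Fintype.card κ : ℝ) ≤ ∑ j, ‖η j‖ * ‖Y j T.Ω‖ := by
    have h6 := Finset.sum_le_sum fun (j : κ) (_ : j ∈ Finset.univ) => h1 j
    simpa using h6
  have h7 := Finset.sum_mul_sq_le_sq_mul_sq Finset.univ (fun j => ‖η j‖) (fun j => ‖Y j T.Ω‖)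
  calc (Fintype.card κ : ℝ) ^ 2 ≤ (∑ j, ‖η j‖ * ‖Y j T.Ω‖) ^ 2 :=
        pow_le_pow_left₀ (by positivity) h5 2
    _ ≤ (∑ j, ‖η j‖ ^ 2) * ∑ j, ‖Y j T.Ω‖ ^ 2 := h7
    _ ≤ (∑ j, ‖η j‖ ^ 2) * C := by gcongr

/-- `‖(X_j + √t S_j) Ω‖² = ‖X_j Ω‖² + t` -/
theorem CR_norm_pert (T : TracialVN H) (X S : κ → H →L[ℂ] H) (hX : ∀ j, IsSelfAdjoint (X j))
    (hS : ∀ j, IsSelfAdjoint (S j)) (h : FreeSemicircularFrom T X S) (t : ℝ) (ht : 0 ≤ t) (j : κ) :
    ‖pert X S t j T.Ω‖ ^ 2 = ‖X j T.Ω‖ ^ 2 + t := by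
  have hS1 : T.tr (S j) = 0 := by
    have := (h.1 j 0).2
    simpa using this
  have hS2 : T.tr (S j * S j) = 1 := by
    have := (h.1 j 1).1
    rw [catalan_one, mul_one, pow_two] at this
    simpa using this
  have hnS : ‖S j T.Ω‖ ^ 2 = 1 := by
    have h1 : inner ℂ (S j T.Ω) (S j T.Ω) = T.tr (S j * S j) := by
      have h2 := ContinuousLinearMap.adjoint_inner_left (S j) (S j T.Ω) T.Ω
      rw [← ContinuousLinearMap.star_eq_adjoint, (hS j).star_eq] at h2
      exact h2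
    rw [hS2, inner_self_eq_norm_sq_to_K] at h1
    have h9 : ((‖S j T.Ω‖ ^ 2 : ℝ) : ℂ) = 1 := by
      rw [← h1]
      push_cast
      rfl
    exact_mod_cast h9
  have hXS : inner ℂ (X j T.Ω) (S j T.Ω) = 0 := by
    have h2 : inner ℂ (X j T.Ω) (S j T.Ω) = T.tr (X j * S j) := by
      have h2 := ContinuousLinearMap.adjoint_inner_left (X j) (S j T.Ω) T.Ω
      rw [← ContinuousLinearMap.star_eq_adjoint, (hX j).star_eq] at h2
      exact h2
    have h3 := h.2 1 ![none, some j] ![X j - algebraMap ℂ _ (T.tr (X j)), S j]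
      (by intro l; fin_cases l; simp)
      (by
        intro l
        fin_cases l
        · exact Subalgebra.sub_mem _ (Algebra.subset_adjoin ⟨j, rfl⟩) (Subalgebra.algebraMap_mem _ _)
        · exact Algebra.subset_adjoin rfl)
      (by
        intro l
        fin_cases l
        · change T.tr (X j - algebraMap ℂ _ (T.tr (X j))) = 0
          have h4 : T.tr (X j - algebraMap ℂ _ (T.tr (X j))) =
              T.tr (X j) - inner ℂ T.Ω ((T.tr (X j)) • T.Ω) := by
            unfold TracialVN.tr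
            rw [sub_apply, inner_sub_right]
            rfl
          rw [h4, inner_smul_right, inner_self_eq_norm_sq_to_K, T.norm_Ω]
          simp
        · exact hS1)
    have h5 : (List.ofFn ![X j - algebraMap ℂ (H →L[ℂ] H) (T.tr (X j)), S j]).prod =
        (X j - algebraMap ℂ (H →L[ℂ] H) (T.tr (X j))) * S j := by
      simp [List.ofFn_succ]
    rw [h5, sub_mul] at h3
    have h6 : T.tr (X j * S j - algebraMap ℂ (H →L[ℂ] H) (T.tr (X j)) * S j) =
        T.tr (X j * S j) - T.tr (X j) * T.tr (S j) := by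
      have h7 : T.tr (algebraMap ℂ (H →L[ℂ] H) (T.tr (X j)) * S j) = T.tr (X j) * T.tr (S j) := by
        rw [← Algebra.smul_def]
        have h8 : T.tr (T.tr (X j) • S j) = inner ℂ T.Ω (T.tr (X j) • (S j T.Ω)) := rfl
        rw [h8, inner_smul_right]
        rfl
      rw [← h7]
      unfold TracialVN.tr
      rw [sub_apply, inner_sub_right]
    rw [h6, hS1, mul_zero, sub_zero] at h3
    rw [h2, h3]
  have h1 : pert X S t j T.Ω = X j T.Ω + ((Real.sqrt t : ℝ) : ℂ) • (S j T.Ω) := rfl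
  rw [h1, @norm_add_sq ℂ, inner_smul_right, hXS, mul_zero, norm_smul, mul_pow, hnS,
    Complex.norm_real, Real.norm_eq_abs, sq_abs, Real.sq_sqrt ht]
  simp

/-- `χ*(X) < ∞` -/
theorem chiStar_lt_top (T : TracialVN H) (X S : κ → H →L[ℂ] H) (hX : ∀ j, IsSelfAdjoint (X j))
    (hS : ∀ j, IsSelfAdjoint (S j)) (h : FreeSemicircularFrom T X S) : chiStar T X S < ⊤ := by
  set n : ℝ := (Fintype.card κ : ℝ) with hn
  have hn0 : 0 ≤ n := by positivity
  set C : ℝ := n + 1 + ∑ j, ‖X j T.Ω‖ ^ 2 with hC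
  have hC1 : n + 1 ≤ C := by
    have : 0 ≤ ∑ j, ‖X j T.Ω‖ ^ 2 := by positivity
    linarith
  have hb : ∀ t : ℝ, 0 < t → ENNReal.ofReal (n ^ 2 / (C + n * t)) ≤ PhiStar T (pert X S t) := by
    intro t ht
    refine CR_PhiStar_ge T _ _ (by positivity) ?_
    simp_rw [CR_norm_pert T X S hX hS h t ht.le]
    rw [Finset.sum_add_distrib, Finset.sum_const, Finset.card_univ, nsmul_eq_mul, ← hn]
    linarith
  have hpt : ∀ t ∈ Ioi (0 : ℝ), ENNReal.ofReal (n / (1 + t)) - PhiStar T (pert X S t) ≤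
      ENNReal.ofReal (C / (1 + t) ^ 2) := by
    intro t ht
    have ht0 : 0 < t := ht
    rw [tsub_le_iff_right]
    refine le_trans ?_ (add_le_add_right (hb t ht0) _)
    rw [← ENNReal.ofReal_add (by positivity) (by positivity)]
    apply ENNReal.ofReal_le_ofReal
    have hp : 0 < C + n * t := by positivity
    rw [div_add_div _ _ (by positivity) hp.ne', div_le_div_iff₀ (by positivity) (by positivity)]
    have e1 : 0 ≤ C - n := by linarith
    have e2 : (C * (C + n * t) + (1 + t) ^ 2 * n ^ 2) * (1 + t) -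
        n * ((1 + t) ^ 2 * (C + n * t)) =
        (1 + t) * (C * (C - n) + n ^ 2 + n ^ 2 * t) := by ring
    have e3 : 0 ≤ (1 + t) * (C * (C - n) + n ^ 2 + n ^ 2 * t) := by
      have : 0 ≤ C * (C - n) := mul_nonneg (by linarith) e1
      positivity
    linarith
  have hA : ∫⁻ t in Ioi (0 : ℝ), (ENNReal.ofReal (n / (1 + t)) - PhiStar T (pert X S t)) ≤
      ENNReal.ofReal (C / (1 + 0)) := by
    rw [← lint_g C 0 (by linarith) le_rfl]
    exact setLIntegral_mono' measurableSet_Ioi hpt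
  have hA2 : (∫⁻ t in Ioi (0 : ℝ),
      (ENNReal.ofReal (n / (1 + t)) - PhiStar T (pert X S t))) / 2 ≠ ⊤ := by
    refine ENNReal.div_ne_top (ne_top_of_le_ne_top ENNReal.ofReal_ne_top hA) (by norm_num)
  unfold chiStar
  rw [← hn]
  generalize (∫⁻ t in Ioi (0 : ℝ),
      (ENNReal.ofReal (n / (1 + t)) - PhiStar T (pert X S t))) / 2 = A at hA2 ⊢
  generalize (∫⁻ t in Ioi (0 : ℝ),
      (PhiStar T (pert X S t) - ENNReal.ofReal (n / (1 + t)))) / 2 = B
  have h1 : (A : EReal) - (B : EReal) < ⊤ := by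
    rw [sub_eq_add_neg]
    refine EReal.add_lt_top ?_ ?_
    · exact fun h => hA2 (EReal.coe_ennreal_eq_top_iff.1 h)
    · rw [Ne, EReal.neg_eq_top_iff]
      exact EReal.coe_ennreal_ne_bot B
  exact EReal.add_lt_top h1.ne (EReal.coe_ne_top _)

end P087
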