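import Mathlib

/-! P087: combinatorial objects (lists of letters). -/

namespace P087

/-- sum over the splittings `w = w1 ++ j :: w2` of `F w1 w2` -/
noncomputable def ssum {κ A : Type} [DecidableEq κ] [AddCommMonoid A] (j : κ) (F : List κ → List κ → A)
    (w : List κ) : A :=
  ∑ l ∈ Finset.range w.length, if w[l]? = some j then F (w.take l) (w.drop (l + 1)) else 0

/-- `cf Q w` = coefficient of `e_w` in `y_Q Ω` (semicircular letters) -/
def cf {I : Type} [DecidableEq I] : List I → List I → ℝ
  | [], w => if w = [] then 1 else 0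
  | i :: Q, [] => cf Q [i]
  | i :: Q, j :: w => (if i = j then cf Q w else 0) + cf Q (i :: j :: w)

/-- moments of a free semicircular family: `τ(y_Q)` -/
def mom {I : Type} [DecidableEq I] (Q : List I) : ℝ := cf Q []

variable (r : ℕ)

/-- triples -/
abbrev J : Type := Fin r × Fin r × Fin r
/-- index set of the tuple: `inl a` is `x_a`, `inr (a,b,c)` is `T_abc` -/
abbrev K : Type := Fin r ⊕ J r
/-- letters: `inl (inl a)` hidden `x_a`, `inl (inr j)` inner noise `s_j`, `inr i` outer noise `S'_i` -/
abbrev Let : Type := K r ⊕ K r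

variable {r}

/-- hidden letter -/
abbrev hid (a : Fin r) : Let r := Sum.inl (Sum.inl a)
/-- inner noise letter -/
abbrev inn (j : J r) : Let r := Sum.inl (Sum.inr j)
/-- outer noise letter -/
abbrev out (i : K r) : Let r := Sum.inr i

/-- monomials (with coefficient) of `X_i(t)`, `q = √t` -/
def mons (q : ℝ) : K r → List (ℝ × List (Let r))
  | Sum.inl a => [(1, [hid a]), (q, [out (Sum.inl a)])]
  | Sum.inr (a, b, c) => [(1, [hid a, hid b, hid c]), (1, [hid c, hid b, hid a]),
      (1, [inn (a, b, c)]), (q, [out (Sum.inr (a, b, c))])]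

/-- `f(X_w(t))` for a linear functional `f` given on letter words -/
noncomputable def ext {A : Type} [AddCommGroup A] [Module ℝ A] (q : ℝ) :
    (List (Let r) → A) → List (K r) → A
  | f, [] => f []
  | f, i :: w => ((mons q i).map fun cm => cm.1 • ext q (fun Q => f (cm.2 ++ Q)) w).sum

/-- `D_p Z_i`: the pairs `(u, v)` with `u x_p v` a word of `Z_i` -/
def Dp (p : Fin r) : K r → List (List (Fin r) × List (Fin r))
  | Sum.inl a => if p = a then [([], [])] else []
  | Sum.inr (a, b, c) =>
      (if p = a then [([], [b, c])] else []) ++ (if p = b then [([a], [c])] else []) ++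
      (if p = c then [([a, b], [])] else []) ++ (if p = c then [([], [b, a])] else []) ++
      (if p = b then [([c], [a])] else []) ++ (if p = a then [([c, b], [])] else [])

/-- the vectors `Ψ_α^{(d)}` as functions on outer words; `q = √t` -/
noncomputable def Psi (q : ℝ) : ℕ → List (Fin r) → List (K r) → ℝ
  | 0, α, u => if u = [] then mom α else 0
  | _ + 1, [], u => if u = [] then 1 else 0
  | d + 1, p :: β, u =>
      (∑ l : Fin β.length, if β[l] = p then mom (β.take l) * Psi q (d + 1) (β.drop (l + 1)) u else 0)
      + q⁻¹ * ∑ l : Fin u.length, ((Dp p u[l]).map fun uv =>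
          Psi q d (uv.1 ++ β) (u.take l) * Psi q d uv.2 (u.drop (l + 1))).sum
termination_by d α => (d, α.length)
decreasing_by
  all_goals simp_wf
  all_goals (try simp [List.length_drop])
  all_goals (try omega)

/-- the coefficient functional `⟪e'_u, X_w(t) Ω⟫` -/
noncomputable def cX (q : ℝ) (u : List (K r)) (w : List (K r)) : ℝ :=
  ext q (fun Q => cf Q (u.map out)) w

/-- `ℓ²` norm of the words of length `k`, component of length `m` -/
noncomputable def nk (r : ℕ) (q : ℝ) (d k m : ℕ) : ℝ :=
  Real.sqrt (∑ α : Fin k → Fin r, ∑ u : Fin m → K r, (Psi q d (List.ofFn α) (List.ofFn u)) ^ 2)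

/-- `ℓ²` norm of the moments of degree `k` -/
noncomputable def ak (r k : ℕ) : ℝ := Real.sqrt (∑ α : Fin k → Fin r, (mom (List.ofFn α)) ^ 2)

end P087
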