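import Mathlib

/-! P087: abstract facts about conjugate vectors (orthogonal projection onto the closed span of
the vectors `W w`, `w` a word). -/

namespace P087.Conj

variable {H : Type*} [NormedAddCommGroup H] [InnerProductSpace ℂ H] [CompleteSpace H]
variable {κ : Type*}

/-- closed span of the vectors `W w` -/
noncomputable def Kc (W : List κ → H) : Submodule ℂ H :=
  (Submodule.span ℂ (Set.range W)).topologicalClosure

/-- closed span of the vectors `W w` with `w` of length at most `d` -/
noncomputable def Kd (W : List κ → H) (d : ℕ) : Submodule ℂ H :=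
  (Submodule.span ℂ (W '' {w | w.length ≤ d})).topologicalClosure

theorem mem_Kc (W : List κ → H) (w : List κ) : W w ∈ Kc W :=
  Submodule.le_topologicalClosure _ (Submodule.subset_span ⟨w, rfl⟩)

theorem mem_Kd (W : List κ → H) {d : ℕ} {w : List κ} (h : w.length ≤ d) : W w ∈ Kd W d :=
  Submodule.le_topologicalClosure _ (Submodule.subset_span ⟨w, h, rfl⟩)

theorem Kd_mono (W : List κ → H) {d e : ℕ} (h : d ≤ e) : Kd W d ≤ Kd W e := by
  refine Submodule.topologicalClosure_mono (Submodule.span_mono ?_)
  rintro _ ⟨w, hw, rfl⟩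
  exact ⟨w, le_trans hw h, rfl⟩

instance (W : List κ → H) : CompleteSpace (Kc W) :=
  (Submodule.isClosed_topologicalClosure _).completeSpace_coe

instance (W : List κ → H) (d : ℕ) : CompleteSpace (Kd W d) :=
  (Submodule.isClosed_topologicalClosure _).completeSpace_coe

/-- a vector of the closed span orthogonal to all `W w` vanishes -/
theorem eq_zero_of_inner (W : List κ → H) {η : H} (hη : η ∈ Kc W)
    (h : ∀ w, inner ℂ η (W w) = 0) : η = 0 := by
  have h1 : ∀ v ∈ Kc W, inner ℂ η v = 0 := by
    intro v hv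
    have hcl : IsClosed {v : H | inner ℂ η v = 0} :=
      isClosed_eq (by fun_prop) continuous_const
    have hsub : (Submodule.span ℂ (Set.range W) : Set H) ⊆ {v : H | inner ℂ η v = 0} := by
      intro v hv
      induction hv using Submodule.span_induction with
      | mem x hx => obtain ⟨w, rfl⟩ := hx; exact h w
      | zero => simp
      | add x y _ _ hx hy =>
        simp only [Set.mem_setOf_eq] at hx hy ⊢
        rw [inner_add_right, hx, hy, add_zero]
      | smul a x _ hx =>
        simp only [Set.mem_setOf_eq] at hx ⊢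
        rw [inner_smul_right, hx, mul_zero]
    exact hcl.closure_subset_iff.mpr hsub hv
  exact inner_self_eq_zero.mp (h1 η hη)

/-- conjugate vectors are unique -/
theorem unique (W : List κ → H) {η η' : H} (hη : η ∈ Kc W) (hη' : η' ∈ Kc W)
    (h : ∀ w, inner ℂ η (W w) = inner ℂ η' (W w)) : η = η' := by
  rw [← sub_eq_zero]
  refine eq_zero_of_inner W (Submodule.sub_mem _ hη hη') fun w => ?_
  rw [inner_sub_left, h w, sub_self]

/-- projection of a vector to the closed span -/
theorem exists_proj (W : List κ → H) (f : List κ → ℂ) (ξ : H)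
    (hξ : ∀ w, inner ℂ ξ (W w) = f w) :
    ∃ η ∈ Kc W, (∀ w, inner ℂ η (W w) = f w) ∧ ‖η‖ ≤ ‖ξ‖ := by
  refine ⟨(Kc W).starProjection ξ, Submodule.starProjection_apply_mem _ _, fun w => ?_, ?_⟩
  · rw [← hξ w, Submodule.inner_starProjection_left_eq_right,
      Submodule.starProjection_eq_self_iff.mpr (mem_Kc W w)]
  · exact Submodule.norm_starProjection_apply_le _ _

/-- the norm of a vector in the closed span is controlled by vectors which have the same inner
products with the words of length at most `d`, for every `d` -/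
theorem sum_norm_sq_le (W : List κ → H) {ι : Type*} (J : Finset ι) (f : ι → List κ → ℂ)
    (η : ι → H) (hη : ∀ j ∈ J, η j ∈ Kc W) (hf : ∀ j ∈ J, ∀ w, inner ℂ (η j) (W w) = f j w)
    (B : ℝ) (hB : ∀ d : ℕ, ∃ ξ : ι → H, (∀ j ∈ J, ∀ w : List κ, w.length ≤ d →
      inner ℂ (ξ j) (W w) = f j w) ∧ ∑ j ∈ J, ‖ξ j‖ ^ 2 ≤ B) :
    ∑ j ∈ J, ‖η j‖ ^ 2 ≤ B := by
  -- it suffices to show the bound up to `ε`
  refine le_of_forall_pos_le_add fun ε hε => ?_
  set ρ : ℝ := Real.sqrt (ε / (J.card + 1)) with hρ
  have hρ0 : 0 < ρ := Real.sqrt_pos.mpr (by positivity)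
  -- approximation by combinations of short words
  have happ : ∀ j ∈ J, ∃ d : ℕ, ∃ v ∈ Kd W d, ‖η j - v‖ < ρ := by
    intro j hj
    have hcl := hη j hj
    obtain ⟨v, hv, hd⟩ := Metric.mem_closure_iff.mp hcl ρ hρ0
    have hv' : ∃ d, v ∈ Kd W d := by
      clear hd
      induction hv using Submodule.span_induction with
      | mem x hx =>
        obtain ⟨w, rfl⟩ := hx
        exact ⟨w.length, mem_Kd W le_rfl⟩
      | zero => exact ⟨0, Submodule.zero_mem _⟩
      | add x y _ _ hx hy =>
        obtain ⟨d1, h1⟩ := hx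
        obtain ⟨d2, h2⟩ := hy
        exact ⟨max d1 d2, Submodule.add_mem _ (Kd_mono W (le_max_left _ _) h1)
          (Kd_mono W (le_max_right _ _) h2)⟩
      | smul a x _ hx =>
        obtain ⟨d1, h1⟩ := hx
        exact ⟨d1, Submodule.smul_mem _ _ h1⟩
    obtain ⟨d, hd'⟩ := hv'
    exact ⟨d, v, hd', by rwa [dist_eq_norm] at hd⟩
  choose! dd vv hvv hdv using happ
  set D : ℕ := J.sup dd with hD
  obtain ⟨ξ, hξ, hξB⟩ := hB D
  have hterm : ∀ j ∈ J, ‖η j‖ ^ 2 ≤ ‖ξ j‖ ^ 2 + ρ ^ 2 := by
    intro j hj
    have hvD : vv j ∈ Kd W D := Kd_mono W (Finset.le_sup hj) (hvv j hj)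
    -- same projections
    have hproj : (Kd W D).starProjection (η j) = (Kd W D).starProjection (ξ j) := by
      rw [← sub_eq_zero, ← map_sub, Submodule.starProjection_apply_eq_zero_iff]
      intro v hv
      have hcl : IsClosed {v : H | inner ℂ v (η j - ξ j) = 0} :=
        isClosed_eq (by fun_prop) continuous_const
      have hsub : (Submodule.span ℂ (W '' {w | w.length ≤ D}) : Set H) ⊆
          {v : H | inner ℂ v (η j - ξ j) = 0} := by
        intro v hv
        induction hv using Submodule.span_induction with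
        | mem x hx =>
          obtain ⟨w, hw, rfl⟩ := hx
          simp only [Set.mem_setOf_eq]
          rw [← inner_conj_symm, inner_sub_left, hf j hj w, hξ j hj w hw, sub_self, map_zero]
        | zero => simp
        | add x y _ _ hx hy =>
          simp only [Set.mem_setOf_eq] at hx hy ⊢
          rw [inner_add_left, hx, hy, add_zero]
        | smul a x _ hx =>
          simp only [Set.mem_setOf_eq] at hx ⊢
          rw [inner_smul_left, hx, mul_zero]
      exact hcl.closure_subset_iff.mpr hsub hv
    have hdist : ‖η j - (Kd W D).starProjection (η j)‖ ≤ ρ := by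
      refine le_trans ?_ (hdv j hj).le
      rw [Submodule.starProjection_minimal]
      exact ciInf_le ⟨0, by rintro _ ⟨x, rfl⟩; exact norm_nonneg _⟩ (⟨vv j, hvD⟩ : Kd W D)
    have hpyth := Submodule.norm_sq_eq_add_norm_sq_starProjection (η j) (Kd W D)
    have horth : (Kd W D)ᗮ.starProjection (η j) = η j - (Kd W D).starProjection (η j) := by
      rw [Submodule.starProjection_orthogonal_val]
    rw [hpyth, horth, hproj]
    have h1 : ‖(Kd W D).starProjection (ξ j)‖ ≤ ‖ξ j‖ :=
      Submodule.norm_starProjection_apply_le _ _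
    have h2 : ‖(Kd W D).starProjection (ξ j)‖ ^ 2 ≤ ‖ξ j‖ ^ 2 :=
      pow_le_pow_left₀ (norm_nonneg _) h1 2
    rw [← hproj] at h2 ⊢
    have h3 := pow_le_pow_left₀ (norm_nonneg _) hdist 2
    linarith
  calc ∑ j ∈ J, ‖η j‖ ^ 2 ≤ ∑ j ∈ J, (‖ξ j‖ ^ 2 + ρ ^ 2) := Finset.sum_le_sum hterm
    _ = ∑ j ∈ J, ‖ξ j‖ ^ 2 + J.card * ρ ^ 2 := by
        rw [Finset.sum_add_distrib, Finset.sum_const, nsmul_eq_mul]
    _ ≤ B + ε := by
        rw [hρ, Real.sq_sqrt (by positivity)]
        have : (J.card : ℝ) * (ε / (J.card + 1)) ≤ ε := by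
          rw [mul_div_assoc', div_le_iff₀ (by positivity)]
          nlinarith
        linarith

end P087.Conj
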