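import Vale.Agent.Lib.P087.Stmt
import Vale.Agent.Lib.P087.Comb

/-! P087: the abstract Fock system and the tuple `X(t)`. -/

open scoped ENNReal

namespace P087

variable {H : Type} [NormedAddCommGroup H] [InnerProductSpace ℂ H] [CompleteSpace H]

/-- free semicircular family `y_i = ℓ_i + ℓ_i*` on the full Fock space, inside a tracial von Neumann algebra -/
structure FockSys (T : TracialVN H) (I : Type) [DecidableEq I] where
  y : I → H →L[ℂ] H
  e : List I → H
  y_mem : ∀ i, y i ∈ T.M
  y_sa : ∀ i, IsSelfAdjoint (y i)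
  e_on : Orthonormal ℂ e
  e_nil : e [] = T.Ω
  act_nil : ∀ i, y i (e []) = e [i]
  act_cons : ∀ i j w, y i (e (j :: w)) = e (i :: j :: w) + (if i = j then e w else 0)

variable {T : TracialVN H} {r : ℕ}

/-- `X_i(t)` with `q = √t` -/
noncomputable def Xop (F : FockSys T (Let r)) (q : ℝ) (i : K r) : H →L[ℂ] H :=
  ((mons q i).map fun cm => (cm.1 : ℂ) • wordOp F.y cm.2).sum

end P087
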