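import Mathlib

/-!
# P087: the full Fock space on an alphabet `I`, its left and right semicircular operators

* `FH I = ℓ²(List I)`, basis vectors `e w`, vacuum `Om = e []`;
* `la i`, `lc i` (left annihilation and creation), `y i = lc i + la i`;
* `ra i`, `rc i` (right annihilation and creation), `d i = rc i + ra i`.
-/

namespace P087

open scoped Classical

noncomputable section

variable {I : Type}

/-- the full Fock space `ℓ²(List I)` -/
abbrev FH (I : Type) : Type := lp (fun _ : List I => ℂ) 2

/-- basis vector -/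
def e (w : List I) : FH I := lp.single 2 w (1 : ℂ)

/-- vacuum -/
abbrev Om : FH I := e []

theorem e_self (w : List I) : (e w : FH I) w = 1 := by
  unfold e
  rw [lp.single_apply, Pi.single_eq_same]

theorem e_ne {w v : List I} (h : v ≠ w) : (e w : FH I) v = 0 := by
  unfold e
  rw [lp.single_apply, Pi.single_eq_of_ne h]

theorem inner_e (w : List I) (ξ : FH I) : inner ℂ (e w) ξ = ξ w := by
  unfold e
  rw [lp.inner_single_left, RCLike.inner_apply, map_one, mul_one]

theorem inner_e_right (w : List I) (ξ : FH I) : inner ℂ ξ (e w) = (starRingEnd ℂ) (ξ w) := by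
  rw [← inner_conj_symm, inner_e]

theorem norm_e (w : List I) : ‖(e w : FH I)‖ = 1 := by
  unfold e
  rw [lp.norm_single (by norm_num)]
  exact norm_one

theorem single_eq (w : List I) (c : ℂ) : (lp.single 2 w c : FH I) = c • e w := by
  ext v
  rw [lp.coeFn_smul, Pi.smul_apply, lp.single_apply]
  by_cases h : v = w
  · subst h
    rw [Pi.single_eq_same, e_self, smul_eq_mul, mul_one]
  · rw [Pi.single_eq_of_ne h, e_ne h, smul_zero]

theorem hasSum_e (ξ : FH I) : HasSum (fun w => ξ w • (e w : FH I)) ξ := by
  have h1 : HasSum (fun i => lp.single 2 i (ξ i) : List I → FH I) ξ :=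
    lp.hasSum_single (by norm_num) ξ
  refine h1.congr_fun ?_
  intro w
  exact (single_eq w (ξ w)).symm

/-- expansion of the image of a vector -/
theorem hasSum_op {E : Type} [NormedAddCommGroup E] [NormedSpace ℂ E] (A : FH I →L[ℂ] E)
    (ξ : FH I) : HasSum (fun w => ξ w • A (e w)) (A ξ) := by
  have h1 := A.hasSum (hasSum_e ξ)
  refine h1.congr_fun ?_
  intro w
  rw [map_smul]

/-- two operators which agree on the basis vectors of the support agree on the vector -/
theorem op_ext_on {E : Type} [NormedAddCommGroup E] [NormedSpace ℂ E] {A B : FH I →L[ℂ] E}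
    {ξ : FH I} (h : ∀ w, ξ w ≠ 0 → A (e w) = B (e w)) : A ξ = B ξ := by
  refine (hasSum_op A ξ).unique ?_
  refine (hasSum_op B ξ).congr_fun ?_
  intro w
  by_cases hw : ξ w = 0
  · rw [hw, zero_smul, zero_smul]
  · rw [h w hw]

theorem op_ext {E : Type} [NormedAddCommGroup E] [NormedSpace ℂ E] {A B : FH I →L[ℂ] E}
    (h : ∀ w, A (e w) = B (e w)) : A = B := by
  ext1 ξ
  exact op_ext_on fun w _ => h w

/-! ### composition with an injective map of words -/

theorem pull_mem {φ : List I → List I} (hφ : Function.Injective φ) (ξ : FH I) :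
    Memℓp (fun w => ξ (φ w)) 2 := by
  have hp : 0 < (2 : ENNReal).toReal := by norm_num
  have h1 : Summable fun i => ‖ξ i‖ ^ (2 : ENNReal).toReal := (lp.memℓp ξ).summable hp
  exact memℓp_gen (h1.comp_injective hφ)

/-- `(pull φ ξ) w = ξ (φ w)` -/
def pull (φ : List I → List I) (hφ : Function.Injective φ) : FH I →L[ℂ] FH I :=
  LinearMap.mkContinuous
    { toFun := fun ξ => ⟨fun w => ξ (φ w), pull_mem hφ ξ⟩
      map_add' := fun _ _ => rfl
      map_smul' := fun _ _ => rfl } 1
    (fun ξ => by
      rw [one_mul]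
      have hp : 0 < (2 : ENNReal).toReal := by norm_num
      refine (lp.norm_le_of_tsum_le hp (norm_nonneg _) ?_)
      rw [lp.norm_rpow_eq_tsum hp]
      have h1 : Summable fun i => ‖ξ i‖ ^ (2 : ENNReal).toReal := (lp.memℓp ξ).summable hp
      exact tsum_comp_le_tsum_of_inj h1 (fun i => by positivity) hφ)

theorem pull_apply (φ : List I → List I) (hφ : Function.Injective φ) (ξ : FH I) (w : List I) :
    pull φ hφ ξ w = ξ (φ w) := rfl

theorem norm_pull_le (φ : List I → List I) (hφ : Function.Injective φ) : ‖pull φ hφ‖ ≤ 1 :=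
  LinearMap.mkContinuous_norm_le _ zero_le_one _

theorem pull_e_image (φ : List I → List I) (hφ : Function.Injective φ) (w : List I) :
    pull φ hφ (e (φ w)) = e w := by
  ext v
  rw [pull_apply]
  by_cases h : v = w
  · rw [h, e_self, e_self]
  · rw [e_ne h, e_ne (fun h2 => h (hφ h2))]

theorem pull_e_of_notMem (φ : List I → List I) (hφ : Function.Injective φ) {w : List I}
    (hw : ∀ v, φ v ≠ w) : pull φ hφ (e w) = 0 := by
  ext v
  rw [pull_apply, e_ne (hw v)]
  rfl

/-- the adjoint of `pull`: `e w ↦ e (φ w)` -/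
def push (φ : List I → List I) (hφ : Function.Injective φ) : FH I →L[ℂ] FH I :=
  ContinuousLinearMap.adjoint (pull φ hφ)

theorem push_apply (φ : List I → List I) (hφ : Function.Injective φ) (ξ : FH I) (w : List I) :
    push φ hφ ξ (φ w) = ξ w := by
  rw [← inner_e, push, ContinuousLinearMap.adjoint_inner_right, pull_e_image, inner_e]

theorem push_apply_of_notMem (φ : List I → List I) (hφ : Function.Injective φ) (ξ : FH I)
    {w : List I} (hw : ∀ v, φ v ≠ w) : push φ hφ ξ w = 0 := by
  rw [← inner_e, push, ContinuousLinearMap.adjoint_inner_right, pull_e_of_notMem φ hφ hw,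
    inner_zero_left]

theorem push_e (φ : List I → List I) (hφ : Function.Injective φ) (w : List I) :
    push φ hφ (e w) = e (φ w) := by
  ext v
  by_cases h : ∃ u, φ u = v
  · obtain ⟨u, rfl⟩ := h
    rw [push_apply]
    by_cases h2 : u = w
    · rw [h2, e_self, e_self]
    · rw [e_ne h2, e_ne (fun h3 => h2 (hφ h3))]
  · push Not at h
    rw [push_apply_of_notMem φ hφ _ h, e_ne]
    intro h2
    exact h w h2.symm

/-! ### creation and annihilation operators -/

/-- left annihilation `(la i ξ) w = ξ (i :: w)` -/
def la (i : I) : FH I →L[ℂ] FH I := pull (fun w => i :: w) fun _ _ h => (List.cons.inj h).2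

/-- left creation `e w ↦ e (i :: w)` -/
def lc (i : I) : FH I →L[ℂ] FH I := push (fun w => i :: w) fun _ _ h => (List.cons.inj h).2

theorem snoc_inj (i : I) : Function.Injective (fun w : List I => w ++ [i]) := fun _ _ h =>
  List.append_cancel_right h

/-- right annihilation `(ra i ξ) w = ξ (w ++ [i])` -/
def ra (i : I) : FH I →L[ℂ] FH I := pull (fun w => w ++ [i]) (snoc_inj i)

/-- right creation `e w ↦ e (w ++ [i])` -/
def rc (i : I) : FH I →L[ℂ] FH I := push (fun w => w ++ [i]) (snoc_inj i)

/-- left semicircular operator -/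
def y (i : I) : FH I →L[ℂ] FH I := lc i + la i

/-- right semicircular operator -/
def d (i : I) : FH I →L[ℂ] FH I := rc i + ra i

theorem adjoint_la (i : I) : ContinuousLinearMap.adjoint (la i) = lc i := rfl

theorem adjoint_lc (i : I) : ContinuousLinearMap.adjoint (lc i) = la i := by
  rw [← adjoint_la, ContinuousLinearMap.adjoint_adjoint]

theorem adjoint_ra (i : I) : ContinuousLinearMap.adjoint (ra i) = rc i := rfl

theorem adjoint_rc (i : I) : ContinuousLinearMap.adjoint (rc i) = ra i := by
  rw [← adjoint_ra, ContinuousLinearMap.adjoint_adjoint]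

theorem star_y (i : I) : star (y i) = y i := by
  unfold y
  rw [star_add, ContinuousLinearMap.star_eq_adjoint, ContinuousLinearMap.star_eq_adjoint,
    adjoint_lc, adjoint_la, add_comm]

theorem star_d (i : I) : star (d i) = d i := by
  unfold d
  rw [star_add, ContinuousLinearMap.star_eq_adjoint, ContinuousLinearMap.star_eq_adjoint,
    adjoint_rc, adjoint_ra, add_comm]

theorem la_apply (i : I) (ξ : FH I) (w : List I) : la i ξ w = ξ (i :: w) := rfl

theorem ra_apply (i : I) (ξ : FH I) (w : List I) : ra i ξ w = ξ (w ++ [i]) := rfl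

theorem lc_apply_cons (i : I) (ξ : FH I) (w : List I) : lc i ξ (i :: w) = ξ w :=
  push_apply _ _ _ _

theorem lc_apply_nil (i : I) (ξ : FH I) : lc i ξ [] = 0 :=
  push_apply_of_notMem _ _ _ fun _ h => by simp at h

theorem lc_apply_ne {i j : I} (h : j ≠ i) (ξ : FH I) (w : List I) : lc i ξ (j :: w) = 0 :=
  push_apply_of_notMem _ _ _ fun _ h2 => h (List.cons.inj h2).1.symm

theorem lc_e (i : I) (w : List I) : lc i (e w) = e (i :: w) := push_e _ _ _

theorem rc_e (i : I) (w : List I) : rc i (e w) = e (w ++ [i]) := push_e _ _ _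

theorem la_e_nil (i : I) : la i (e []) = 0 := pull_e_of_notMem _ _ fun _ h => by simp at h

theorem la_e_self (i : I) (w : List I) : la i (e (i :: w)) = e w := pull_e_image _ _ _

theorem la_e_ne {i j : I} (h : j ≠ i) (w : List I) : la i (e (j :: w)) = 0 :=
  pull_e_of_notMem _ _ fun _ h2 => h (List.cons.inj h2).1.symm

theorem ra_e_nil (i : I) : ra i (e []) = 0 := pull_e_of_notMem _ _ fun _ h => by simp at h

theorem ra_e_self (i : I) (w : List I) : ra i (e (w ++ [i])) = e w :=
  pull_e_image (fun w => w ++ [i]) _ _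

theorem ra_e_ne {i j : I} (h : j ≠ i) (w : List I) : ra i (e (w ++ [j])) = 0 :=
  pull_e_of_notMem _ _ fun v h2 => h (by
    have h3 := congrArg List.getLast? h2
    simp at h3
    exact h3.symm)

theorem y_e_nil (i : I) : y i (e []) = e [i] := by
  change lc i (e []) + la i (e []) = _
  rw [lc_e, la_e_nil, add_zero]

theorem d_e_nil (i : I) : d i (e []) = e [i] := by
  change rc i (e []) + ra i (e []) = _
  rw [rc_e, ra_e_nil, add_zero]
  rfl

theorem y_e_self (i : I) (w : List I) : y i (e (i :: w)) = e (i :: i :: w) + e w := by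
  change lc i (e (i :: w)) + la i (e (i :: w)) = _
  rw [lc_e, la_e_self]

theorem y_e_ne {i j : I} (h : j ≠ i) (w : List I) : y i (e (j :: w)) = e (i :: j :: w) := by
  change lc i (e (j :: w)) + la i (e (j :: w)) = _
  rw [lc_e, la_e_ne h, add_zero]

/-- the projection onto the vacuum -/
def PO : FH I →L[ℂ] FH I := (innerSL ℂ (e [] : FH I)).smulRight (e [] : FH I)

theorem PO_apply (ξ : FH I) : PO ξ = ξ [] • (e [] : FH I) := by
  change inner ℂ (e [] : FH I) ξ • (e [] : FH I) = _
  rw [inner_e]

theorem adjoint_PO : ContinuousLinearMap.adjoint (PO : FH I →L[ℂ] FH I) = PO := by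
  symm
  rw [ContinuousLinearMap.eq_adjoint_iff]
  intro ξ η
  rw [PO_apply, PO_apply, inner_smul_left, inner_smul_right, inner_e, inner_e_right, mul_comm]

theorem la_rc (i j : I) : la i * rc j = rc j * la i + (if i = j then PO else 0) := by
  apply op_ext
  intro w
  change la i (rc j (e w)) = rc j (la i (e w)) + (if i = j then PO else 0 : FH I →L[ℂ] FH I) (e w)
  rw [rc_e]
  cases w with
  | nil =>
    rw [la_e_nil, map_zero, zero_add, List.nil_append]
    by_cases h : i = j
    · subst h
      rw [if_pos rfl, la_e_self, PO_apply, e_self, one_smul]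
    · rw [if_neg h, la_e_ne (fun h2 => h h2.symm)]
      rfl
  | cons a u =>
    have h0 : (if i = j then PO else 0 : FH I →L[ℂ] FH I) (e (a :: u)) = 0 := by
      by_cases h : i = j
      · rw [if_pos h, PO_apply, e_ne (by simp), zero_smul]
      · rw [if_neg h]; rfl
    rw [h0, add_zero, List.cons_append]
    by_cases h : a = i
    · subst h
      rw [la_e_self, la_e_self, rc_e]
    · rw [la_e_ne h, la_e_ne h, map_zero]

theorem ra_lc (i j : I) : ra j * lc i = lc i * ra j + (if i = j then PO else 0) := by
  have h := congrArg (fun A : FH I →L[ℂ] FH I => star A) (la_rc i j)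
  simp only [star_mul, star_add] at h
  rw [ContinuousLinearMap.star_eq_adjoint, ContinuousLinearMap.star_eq_adjoint, adjoint_rc,
    adjoint_la] at h
  rw [h]
  congr 1
  by_cases h2 : i = j
  · rw [if_pos h2, ContinuousLinearMap.star_eq_adjoint, adjoint_PO]
  · rw [if_neg h2, star_zero]

theorem la_ra (i j : I) : la i * ra j = ra j * la i := by
  ext ξ w
  rfl

theorem lc_rc (i j : I) : lc i * rc j = rc j * lc i := by
  apply op_ext
  intro w
  change lc i (rc j (e w)) = rc j (lc i (e w))
  rw [rc_e, lc_e, lc_e, rc_e, List.cons_append]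

/-- left and right semicircular operators commute -/
theorem y_d (i j : I) : y i * d j = d j * y i := by
  unfold y d
  rw [add_mul, mul_add, mul_add, mul_add, add_mul, add_mul, lc_rc, la_rc, la_ra, ra_lc]
  abel

end

end P087
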