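import Vale.Agent.Lib.P087.P.Final
import Vale.Agent.Lib.P087.P.VecC
import Vale.Agent.Lib.P087.P.NormC
import Vale.Agent.Lib.P087.P.Tup
import Vale.Agent.Lib.P087.F.Exists
import Vale.Agent.Lib.P087.F.Free
import Vale.Agent.Lib.P087.G.ChiLe
import Vale.Agent.Lib.P087.G.ChiGt

/-! P087: assembly. -/

namespace P087

theorem answer : Answer := by
  obtain ⟨r, hr⟩ : ∃ r : ℕ, r = 10 ^ 12 := ⟨_, rfl⟩
  obtain ⟨H, i1, i2, i3, T, ⟨F⟩⟩ := exists_fock (Let r)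
  refine ⟨H, i1, i2, i3, T, K r, inferInstance, inferInstance, Xop F 0, fun i => F.y (out i),
    fun j => ⟨Xop_mem F 0 j, Xop_sa F 0 j⟩, fun j => ⟨F.y_mem _, F.y_sa _⟩,
    free_semicircular F, chi_gt_bot F, lt_of_le_of_lt (chi_le F) ?_⟩
  exact chiStar_gt_of_hid F hr fun q _ a => ⟨XiC F a, inner_XiC_X F q a, norm_XiC F a⟩

end P087
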